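import Crest.Agent.Lib.PolyBB.Spec

/-!
# Verified polynomial branch and bound: correctness of the compilation to closures
-/

set_option autoImplicit false

namespace Crest.Agent.Lib.PolyBB

theorem force_eq {β : Type} (n : ℕ) (k : ℕ → β) : force n k = k n := by
  cases n <;> rfl

theorem lmap_eq {α β : Type} (f : α → β) (l : List α) : lmap f l = l.map f := by
  induction l with
  | nil => rfl
  | cons a l ih => exact congrArg (f a :: ·) ih

theorem mkR_spec {α : Type} (z : α) (fuel m : ℕ) (l : List (α × α)) :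
    ∃ r : List (α × α), (∀ k, (mkR z fuel m).1 l k = k r) ∧
      ∀ i, m.testBit i = true → r.getD i (z, z) = l.getD i (z, z) := by
  induction fuel generalizing m l with
  | zero => exact ⟨l, fun _ => rfl, fun _ _ => rfl⟩
  | succ fuel ih =>
    have e : mkR z (fuel + 1) m = Bool.rec (motive := fun _ => Rs α)
        (Bool.rec (motive := fun _ => Rs α)
          ⟨fun l k => List.rec (motive := fun _ => Cx α) (k [])
            (fun x l _ => (mkR z fuel (m >>> 1)).1 l (fun r => k (x :: r))) l⟩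
          ⟨fun l k => List.rec (motive := fun _ => Cx α) (k [])
            (fun _ l _ => (mkR z fuel (m >>> 1)).1 l (fun r => k ((z, z) :: r))) l⟩
          (Nat.beq (m &&& 1) 0))
        ⟨fun _ k => k []⟩ (Nat.beq m 0) := rfl
    rw [e]
    cases h0 : Nat.beq m 0
    · cases l with
      | nil =>
        refine ⟨[], fun k => ?_, fun _ _ => rfl⟩
        cases Nat.beq (m &&& 1) 0 <;> rfl
      | cons x l =>
        obtain ⟨r, hr1, hr2⟩ := ih (m >>> 1) l
        have hs : ∀ i, m.testBit (i + 1) = true → r.getD i (z, z) = l.getD i (z, z) :=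
          fun i hi => hr2 i (by rw [Nat.testBit_shiftRight, Nat.add_comm]; exact hi)
        cases h1 : Nat.beq (m &&& 1) 0
        · refine ⟨x :: r, fun k => hr1 _, fun i hi => ?_⟩
          cases i with
          | zero => rfl
          | succ i => exact hs i hi
        · refine ⟨(z, z) :: r, fun k => hr1 _, fun i hi => ?_⟩
          cases i with
          | zero =>
            have h2 : m &&& 1 = 0 := Nat.eq_of_beq_eq_true h1
            rw [Nat.and_one_is_mod] at h2
            rw [Nat.testBit_zero] at hi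
            simp [h2] at hi
          | succ i => exact hs i hi
    · obtain rfl : m = 0 := Nat.eq_of_beq_eq_true h0
      exact ⟨[], fun _ => rfl, fun i hi => by simp at hi⟩

section

variable {α R : Type} [CommRing R] (ρ : α → R → Prop) (z : α) (V U : ℕ → R) (p : ℕ → ℤ)

/-- The environment represents the variables and parameters selected by `m`. -/
def Env (m : ℕ) (c : Cx α) : Prop :=
  (∀ i, m.testBit (i + 1) = true →
    ρ (c.1.getD i (z, z)).1 (V i) ∧ ρ (c.1.getD i (z, z)).2 (U i)) ∧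
  (m.testBit 0 = true → ∀ j, ρ (c.2.getD j z) (p j))

/-- The closure computes `h`. -/
def Good (h : H) (a : Cl α) : Prop := ∀ c, Env ρ z V U p (msk h) c → ρ (a.1 c) (h.ev V U p)

variable {ρ z V U p}

theorem Env.mono {m m' : ℕ} {c : Cx α} (h : Env ρ z V U p m c)
    (hm : ∀ i, m'.testBit i = true → m.testBit i = true) : Env ρ z V U p m' c :=
  ⟨fun i hi => h.1 i (hm _ hi), fun hi => h.2 (hm _ hi)⟩

theorem Good.only {h : H} {a : Cl α} (ha : Good ρ z V U p h a) :
    Good ρ z V U p h (only z (msk h) a) := by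
  rintro ⟨l, q⟩ hc
  obtain ⟨r, hr1, hr2⟩ := mkR_spec z 32 (msk h >>> 1) l
  have hs : ∀ i, (msk h).testBit (i + 1) = true → r.getD i (z, z) = l.getD i (z, z) :=
    fun i hi => hr2 i (by rw [Nat.testBit_shiftRight, Nat.add_comm]; exact hi)
  unfold PolyBB.only
  rw [force_eq]
  cases h1 : Nat.beq (Nat.land (msk h) 1) 0
  · have e : rcx1 (mkR z 32 (msk h >>> 1)) ⟨l, q⟩ = ⟨r, q⟩ := hr1 _
    change ρ (Cx.rec (motive := fun _ => α) (fun l p => a.1 ⟨l, p⟩)
      (rcx1 (mkR z 32 (msk h >>> 1)) ⟨l, q⟩)) _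
    rw [e]
    exact ha ⟨r, q⟩ ⟨fun i hi => by simpa only [hs i hi] using hc.1 i hi, hc.2⟩
  · have e : rcx0 (mkR z 32 (msk h >>> 1)) ⟨l, q⟩ = ⟨r, []⟩ := hr1 _
    change ρ (Cx.rec (motive := fun _ => α) (fun l p => a.1 ⟨l, p⟩)
      (rcx0 (mkR z 32 (msk h >>> 1)) ⟨l, q⟩)) _
    rw [e]
    refine ha ⟨r, []⟩ ⟨fun i hi => by simpa only [hs i hi] using hc.1 i hi, fun hi => ?_⟩
    have h2 : msk h &&& 1 = 0 := Nat.eq_of_beq_eq_true h1
    rw [Nat.and_one_is_mod] at h2
    rw [Nat.testBit_zero] at hi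
    simp [h2] at hi

theorem sel_spec {a : H} (b : H) {ca : Cl α} (ha : Good ρ z V U p a ca) :
    ∃ ca', Good ρ z V U p a ca' ∧ ∀ k, sel z a b ca k = k ca' := by
  unfold sel
  cases Nat.beq (Nat.lor (msk a) (msk b)) (msk a)
  · cases atom a
    · exact ⟨_, ha.only, fun _ => rfl⟩
    · exact ⟨_, ha, fun _ => rfl⟩
  · exact ⟨_, ha, fun _ => rfl⟩

theorem bin_spec (f : α → α → α) (g : R → R → R)
    (hf : ∀ x y s t, ρ x s → ρ y t → ρ (f x y) (g s t)) {a b : H} {ca cb : Cl α}
    (ha : Good ρ z V U p a ca) (hb : Good ρ z V U p b cb) (c : Cx α)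
    (hc : Env ρ z V U p (msk a ||| msk b) c) :
    ρ ((bin z f a b ca cb).1 c) (g (a.ev V U p) (b.ev V U p)) := by
  obtain ⟨ca', ha', ea⟩ := sel_spec b ha
  obtain ⟨cb', hb', eb⟩ := sel_spec a hb
  unfold bin
  rw [ea, eb]
  exact hf _ _ _ _ (ha' c (hc.mono fun i hi => by simp [hi]))
    (hb' c (hc.mono fun i hi => by simp [hi]))

theorem comp_spec (add sub mul : α → α → α) (pow : α → ℕ → α) (cst : ℤ → Cl α)
    (hadd : ∀ x y s t, ρ x s → ρ y t → ρ (add x y) (s + t))
    (hsub : ∀ x y s t, ρ x s → ρ y t → ρ (sub x y) (s - t))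
    (hmul : ∀ x y s t, ρ x s → ρ y t → ρ (mul x y) (s * t))
    (hpow : ∀ x s k, ρ x s → ρ (pow x k) (s ^ k))
    (hcst : ∀ n c, ρ ((cst n).1 c) (n : R)) (h : H) :
    Good ρ z V U p h (comp z add sub mul pow cst h) := by
  have hbit : ∀ i, (Nat.shiftLeft 2 i).testBit (i + 1) = true := by
    intro i
    change (2 <<< i).testBit (i + 1) = true
    rw [Nat.shiftLeft_eq, ← pow_succ', Nat.testBit_two_pow_self]
  induction h with
  | v i =>
    intro c hc
    change ρ (nth (z, z) c.1 i).1 (V i)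
    rw [nth_eq]; exact (hc.1 i (hbit i)).1
  | u i =>
    intro c hc
    change ρ (nth (z, z) c.1 i).2 (U i)
    rw [nth_eq]; exact (hc.1 i (hbit i)).2
  | par j =>
    intro c hc
    change ρ (nth z c.2 j) (p j)
    rw [nth_eq]; exact hc.2 (show Nat.testBit 1 0 = true by decide) j
  | cst n => exact fun c _ => hcst n c
  | add a b iha ihb => exact fun c hc => bin_spec add (· + ·) hadd iha ihb c hc
  | sub a b iha ihb => exact fun c hc => bin_spec sub (· - ·) hsub iha ihb c hc
  | mul a b iha ihb => exact fun c hc => bin_spec mul (· * ·) hmul iha ihb c hc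
  | pow a k iha => exact fun c hc => hpow _ _ k (iha c hc)

end

theorem cstZ_val (n : ℤ) (c : Cx Z) : ((cstZ n).1 c).val = n := by
  cases n <;> rfl

theorem cstN_eq (n : ℤ) (c : Cx ℕ) : (cstN n).1 c = n.natAbs := by
  unfold cstN
  rw [force_eq, iabs_eq]

theorem getD_envN (B : Box) (i : ℕ) : (envN B).getD i (0, 0) =
    ((nth ⟨0, 0, 0, 0⟩ B i).va.natAbs + (nth ⟨0, 0, 0, 0⟩ B i).vb.natAbs,
      (nth ⟨0, 0, 0, 0⟩ B i).ua + (nth ⟨0, 0, 0, 0⟩ B i).ub) := by
  induction B generalizing i with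
  | nil => rfl
  | cons I B ih =>
    cases i with
    | zero => rw [← iabs_eq, ← iabs_eq]; rfl
    | succ i => exact ih i

theorem getD_envZ (B : Box) (st : List ℕ) (i : ℕ) :
    ((envZ B st).getD i (Z.pos 0, Z.pos 0)).1.val =
      (nth ⟨0, 0, 0, 0⟩ B i).va + (nth ⟨0, 0, 0, 0⟩ B i).vb * 2 ^ st.getD i 0 ∧
    ((envZ B st).getD i (Z.pos 0, Z.pos 0)).2.val =
      (nth ⟨0, 0, 0, 0⟩ B i).ua + (nth ⟨0, 0, 0, 0⟩ B i).ub * 2 ^ st.getD i 0 := by
  induction B generalizing st i with
  | nil => exact ⟨by simp [envZ, nth, Z.val], by simp [envZ, nth, Z.val]⟩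
  | cons I B ih =>
    obtain ⟨ua, va, ub, vb⟩ := I
    cases st with
    | nil =>
      cases i with
      | zero =>
        constructor
        · change (Z.add (Z.ofInt va) (Z.ofInt vb)).val = va + vb * 2 ^ 0
          rw [Z.val_add, Z.val_ofInt, Z.val_ofInt]; ring
        · change ((ua + ub : ℕ) : ℤ) = ua + ub * 2 ^ 0
          push_cast; ring
      | succ i => exact ih [] i
    | cons s st =>
      cases i with
      | zero =>
        constructor
        · change (Z.add (Z.ofInt va) (Z.shl (Z.ofInt vb) s)).val = va + vb * 2 ^ s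
          rw [Z.val_add, Z.val_shl, Z.val_ofInt, Z.val_ofInt]
        · change ((ua + ub <<< s : ℕ) : ℤ) = ua + ub * 2 ^ s
          rw [Nat.shiftLeft_eq]; push_cast; ring
      | succ i => exact ih st i

end Crest.Agent.Lib.PolyBB
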