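import Crest.Agent.Lib.PolyBB.Kron
import Crest.Agent.Lib.PolyBB.Comp

/-!
# Verified polynomial branch and bound: soundness

Certificate files only need `Crest.Agent.Lib.PolyBB.Core` (no Mathlib):
`theorem c : run es t B q = true := by decide +kernel`. This file turns them into inequalities:
`chk_sound`, `run_sound`, `run2_sound`, and the gluing lemmas `Holds.split`, `Holds2.split`,
`Holds2.leaf`.
-/

set_option autoImplicit false

open MvPolynomial

namespace Crest.Agent.Lib.PolyBB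

/-- The value of an expression. -/
noncomputable def E.eval (x : ℕ → ℝ) (p : ℕ → ℤ) : E → ℝ
  | .var i => x i
  | .par j => (p j : ℝ)
  | .cst z => (z : ℝ)
  | .add a b => a.eval x p + b.eval x p
  | .sub a b => a.eval x p - b.eval x p
  | .mul a b => a.eval x p * b.eval x p
  | .pow a k => a.eval x p ^ k

section simps

variable (x : ℕ → ℝ) (p : ℕ → ℤ)

@[simp] theorem E.eval_var (i : ℕ) : (E.var i).eval x p = x i := rfl
@[simp] theorem E.eval_par (j : ℕ) : (E.par j).eval x p = p j := rfl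
@[simp] theorem E.eval_cst (z : ℤ) : (E.cst z).eval x p = z := rfl
@[simp] theorem E.eval_add (a b : E) : (E.add a b).eval x p = a.eval x p + b.eval x p := rfl
@[simp] theorem E.eval_sub (a b : E) : (E.sub a b).eval x p = a.eval x p - b.eval x p := rfl
@[simp] theorem E.eval_mul (a b : E) : (E.mul a b).eval x p = a.eval x p * b.eval x p := rfl
@[simp] theorem E.eval_pow (a : E) (k : ℕ) : (E.pow a k).eval x p = a.eval x p ^ k := rfl

theorem E.eval_eq_ev (e : E) : e.eval x p = e.ev x p := by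
  induction e <;> simp [E.ev, *]

end simps

theorem E.continuous_eval {α : Type} [TopologicalSpace α] (f : α → ℕ → ℝ) (a : α)
    (hf : ∀ i, ContinuousAt (fun t => f t i) a) (p : ℕ → ℤ) (e : E) :
    ContinuousAt (fun t => e.eval (f t) p) a := by
  induction e with
  | var i => exact hf i
  | par j => exact continuousAt_const
  | cst z => exact continuousAt_const
  | add a b iha ihb => exact iha.add ihb
  | sub a b iha ihb => exact iha.sub ihb
  | mul a b iha ihb => exact iha.mul ihb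
  | pow a k iha => exact iha.pow k

def Iv.mem (I : Iv) (t : ℝ) : Prop := (I.va : ℝ) ≤ t * I.ua ∧ t * I.ub ≤ I.vb

def Box.mem (B : Box) (x : ℕ → ℝ) : Prop := ∀ (i : ℕ) (h : i < B.length), (B[i]).mem (x i)

@[simp] theorem Iv.mem_mk (ua : ℕ) (va : ℤ) (ub : ℕ) (vb : ℤ) (t : ℝ) :
    Iv.mem ⟨ua, va, ub, vb⟩ t ↔ (va : ℝ) ≤ t * ua ∧ t * ub ≤ vb := Iff.rfl

@[simp] theorem Box.mem_nil (x : ℕ → ℝ) : Box.mem [] x := fun _ h => absurd h (by simp)

@[simp] theorem Box.mem_cons (I : Iv) (B : Box) (x : ℕ → ℝ) :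
    Box.mem (I :: B) x ↔ I.mem (x 0) ∧ Box.mem B (fun i => x (i + 1)) := by
  constructor
  · exact fun h => ⟨h 0 (by simp), fun i hi => h (i + 1) (by simpa using hi)⟩
  · rintro ⟨h0, h⟩ i hi
    cases i with
    | zero => exact h0
    | succ i => exact h i (by simpa using hi)

theorem Box.mem_append {B C : Box} {x : ℕ → ℝ} (hB : Box.mem B x)
    (hC : ∀ (j : ℕ) (h : j < C.length), (C[j]).mem (x (B.length + j))) : Box.mem (B ++ C) x := by
  intro i hi
  by_cases h : i < B.length
  · rw [List.getElem_append_left h]; exact hB i h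
  · rw [List.getElem_append_right (not_lt.mp h)]
    have := hC (i - B.length) (by simp at hi; omega)
    rwa [Nat.add_sub_cancel' (not_lt.mp h)] at this

/-- The point with the given coordinates. -/
noncomputable def pt (l : List ℝ) : ℕ → ℝ := fun i => l.getD i 0

@[simp] theorem pt_zero (a : ℝ) (l : List ℝ) : pt (a :: l) 0 = a := rfl
@[simp] theorem pt_succ (a : ℝ) (l : List ℝ) (i : ℕ) : pt (a :: l) (i + 1) = pt l i := rfl

theorem Box.mem_cons_pt (I : Iv) (B : Box) (a : ℝ) (l : List ℝ) :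
    Box.mem (I :: B) (pt (a :: l)) ↔ I.mem a ∧ Box.mem B (pt l) := Box.mem_cons I B _

/-! ## The leaf test -/

theorem Iv.ok_spec {I : Iv} (h : I.ok = true) : I.va * I.ub < I.vb * I.ua := by
  obtain ⟨ua, va, ub, vb⟩ := I
  have e : (Z.sub (Z.mul (Z.ofInt vb) (Z.pos ua)) (Z.mul (Z.ofInt va) (Z.pos ub))).val =
      vb * ua - va * ub := by
    rw [Z.val_sub, Z.val_mul, Z.val_mul, Z.val_ofInt, Z.val_ofInt]; rfl
  unfold Iv.ok at h
  simp only at h
  generalize Z.sub (Z.mul (Z.ofInt vb) (Z.pos ua)) (Z.mul (Z.ofInt va) (Z.pos ub)) = z at h e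
  cases z with
  | pos n =>
    have : 1 ≤ n := Nat.le_of_ble_eq_true h
    change (n : ℤ) = _ at e
    change va * ub < vb * ua
    omega
  | neg n => exact absurd h (by simp)

theorem valid_spec {ds : List ℕ} {B : Box} (h : valid ds B = true) (i : ℕ)
    (hi : ds.getD i 0 ≠ 0) : ∃ h : i < B.length, (B[i]).ok = true := by
  induction ds generalizing B i with
  | nil => simp at hi
  | cons d ds ih =>
    cases B with
    | nil =>
      obtain ⟨h1, h2⟩ := band_eq_true.mp h
      cases i with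
      | zero => exact absurd (Nat.eq_of_beq_eq_true h1) hi
      | succ i => obtain ⟨h3, -⟩ := ih h2 i hi; simp at h3
    | cons I B =>
      obtain ⟨h1, h2⟩ := band_eq_true.mp h
      cases i with
      | zero =>
        refine ⟨by simp, ?_⟩
        have : Nat.beq d 0 = false := by
          rw [← Bool.not_eq_true]; exact fun h => hi (Nat.eq_of_beq_eq_true h)
        rw [this] at h1
        exact h1
      | succ i =>
        obtain ⟨h3, h4⟩ := ih h2 i hi
        exact ⟨by simpa using h3, h4⟩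

/-- Numerator of the Möbius substitution. -/
noncomputable def VP (B : Box) (i : ℕ) : MvPolynomial ℕ ℤ :=
  ((nth ⟨0, 0, 0, 0⟩ B i).va : MvPolynomial ℕ ℤ) + ((nth ⟨0, 0, 0, 0⟩ B i).vb : MvPolynomial ℕ ℤ) * X i

/-- Denominator of the Möbius substitution. -/
noncomputable def UP (B : Box) (i : ℕ) : MvPolynomial ℕ ℤ :=
  (((nth ⟨0, 0, 0, 0⟩ B i).ua : ℤ) : MvPolynomial ℕ ℤ) +
    (((nth ⟨0, 0, 0, 0⟩ B i).ub : ℤ) : MvPolynomial ℕ ℤ) * X i

theorem degreeOf_lin (a b : ℤ) (i j : ℕ) :
    degreeOf i ((a : MvPolynomial ℕ ℤ) + (b : MvPolynomial ℕ ℤ) * X j) ≤ if i = j then 1 else 0 := by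
  refine (degreeOf_add_le _ _ _).trans (max_le ?_ ((degreeOf_mul_le _ _ _).trans ?_))
  · exact (degreeOf_C a i).le.trans (Nat.zero_le _)
  · rw [show degreeOf i (b : MvPolynomial ℕ ℤ) = 0 from degreeOf_C b i, zero_add, degreeOf_X]

theorem bd_evN (B : Box) (ps : List ℤ) (h : H) :
    Bd (h.ev (VP B) (UP B) (fun j => ps.getD j 0)) (evN B ps h) := by
  refine comp_spec (ρ := fun n P => Bd P n) Nat.add Nat.add Nat.mul Nat.pow cstN
    (fun _ _ _ _ => Bd.add) (fun _ _ _ _ => Bd.sub) (fun _ _ _ _ => Bd.mul)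
    (fun _ _ k h => h.pow k) (fun n c => cstN_eq n c ▸ Bd.intCast n) h _
    ⟨fun i _ => ?_, fun _ j => ?_⟩
  · rw [getD_envN]
    refine ⟨Bd.lin _ _ i, ?_⟩
    have := Bd.lin ((nth ⟨0, 0, 0, 0⟩ B i).ua : ℤ) ((nth ⟨0, 0, 0, 0⟩ B i).ub : ℤ) i
    simp only [Int.natAbs_natCast] at this
    exact this
  · have : (lmap iabs ps).getD j 0 = (ps.getD j 0).natAbs := by
      rw [lmap_eq, ← iabs_eq]; exact List.getD_map ps 0 iabs
    rw [this]; exact Bd.intCast _

theorem val_evZ (B : Box) (st : List ℕ) (ps : List ℤ) (h : H) :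
    (evZ B st ps h).val =
      eval (fun i => 2 ^ st.getD i 0) (h.ev (VP B) (UP B) (fun j => ps.getD j 0)) := by
  refine comp_spec (ρ := fun (z : Z) P => z.val = eval (fun i => 2 ^ st.getD i 0) P)
    Z.add Z.sub Z.mul Z.pow cstZ
    (fun _ _ _ _ h h' => by rw [Z.val_add, map_add, h, h'])
    (fun _ _ _ _ h h' => by rw [Z.val_sub, map_sub, h, h'])
    (fun _ _ _ _ h h' => by rw [Z.val_mul, map_mul, h, h'])
    (fun _ _ _ h => by rw [Z.val_pow, map_pow, h])
    (fun n c => by rw [cstZ_val, map_intCast, Int.cast_id]) h _ ⟨fun i _ => ?_, fun _ j => ?_⟩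
  · obtain ⟨h1, h2⟩ := getD_envZ B st i
    dsimp only
    rw [h1, h2]
    simp [VP, UP]
  · have : (lmap Z.ofInt ps).getD j (Z.pos 0) = Z.ofInt (ps.getD j 0) := by
      rw [lmap_eq]; exact List.getD_map ps 0 Z.ofInt
    dsimp only
    rw [this, Z.val_ofInt, map_intCast, Int.cast_id]

theorem chkK_coeff {e : E} {B : Box} {ps : List ℤ} {m : ℕ}
    (h : chkK (hom e) (degs e) B ps (evN B ps (hom e)) (m + 1) = true) :
    ∀ α, 0 ≤ coeff α ((hom e).ev (VP B) (UP B) (fun j => ps.getD j 0)) := by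
  unfold chkK at h
  obtain ⟨h3, h4⟩ := band_eq_true.mp h
  have e2 : Nat.pred (m + 1) = m := rfl
  rw [e2] at h3
  obtain ⟨N, hN, hb⟩ := digOK_spec h4
  refine coeff_nonneg_of_kron _ (degs e)
    (degreeOf_hom _ _ _ (fun i j => degreeOf_lin _ _ i j) (fun i j => degreeOf_lin _ _ i j) e)
    _ m (bd_evN B ps _) (lt_of_shiftRight h3) N ?_ hb
  rw [hN, val_evZ]

theorem nat_add_33 (m : ℕ) : Nat.add m 33 = m + 32 + 1 := rfl

theorem chk_coeff {e : E} {B : Box} {ps : List ℤ} (h : chk e B ps = true) :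
    valid (degs e) B = true ∧
      ∀ α, 0 ≤ coeff α ((hom e).ev (VP B) (UP B) (fun j => ps.getD j 0)) := by
  unfold chk chkH at h
  obtain ⟨h1, h2⟩ := band_eq_true.mp h
  unfold chkN at h2
  rw [force_eq, nat_add_33] at h2
  exact ⟨h1, chkK_coeff h2⟩

theorem eval₂_nonneg (P : MvPolynomial ℕ ℤ) (hP : ∀ α, 0 ≤ coeff α P) (y : ℕ → ℝ)
    (hy : ∀ i, 0 ≤ y i) : 0 ≤ eval₂Hom (Int.castRingHom ℝ) y P := by
  rw [coe_eval₂Hom, eval₂_eq]
  refine Finset.sum_nonneg fun α _ => mul_nonneg ?_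
    (Finset.prod_nonneg fun i _ => pow_nonneg (hy i) _)
  simpa using hP α

/-- Soundness of the leaf test. -/
theorem chk_sound {e : E} {B : Box} {ps : List ℤ} (h : chk e B ps = true) {x : ℕ → ℝ}
    (hx : B.mem x) : 0 ≤ e.eval x (fun j => ps.getD j 0) := by
  classical
  obtain ⟨h1, h2⟩ := chk_coeff h
  set I : ℕ → Iv := nth ⟨0, 0, 0, 0⟩ B with hI
  have hv : ∀ i, deg e i ≠ 0 → ((I i).va : ℝ) * (I i).ub < (I i).vb * (I i).ua ∧
      ((I i).va : ℝ) ≤ x i * (I i).ua ∧ x i * (I i).ub ≤ (I i).vb := by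
    intro i hi
    obtain ⟨h3, h4⟩ := valid_spec h1 i hi
    have e1 : I i = B[i] := by rw [hI, nth_eq, List.getD_eq_getElem _ _ h3]
    rw [e1]
    exact ⟨by exact_mod_cast Iv.ok_spec h4, hx i h3⟩
  set Δ : ℕ → ℝ := fun i => (I i).vb * (I i).ua - (I i).va * (I i).ub with hΔ
  set f : ℝ → ℕ → ℝ := fun t i =>
    if deg e i = 0 then x i else (x i * Δ i + t * (I i).va) / (Δ i + t * (I i).ua) with hf
  have hpos : ∀ t, 0 < t → 0 ≤ e.eval (f t) (fun j => ps.getD j 0) := by
    intro t ht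
    set y : ℕ → ℝ := fun i => if deg e i = 0 then 0 else
      (x i * (I i).ua - (I i).va) / ((I i).vb - x i * (I i).ub + t) with hy
    have hy0 : ∀ i, 0 ≤ y i := by
      intro i
      simp only [hy]
      split_ifs with hi
      · exact le_rfl
      · obtain ⟨-, a2, a3⟩ := hv i hi
        exact div_nonneg (by linarith) (by linarith)
    have h3 := eval₂_nonneg _ h2 y hy0
    have hU : ∀ i, deg e i ≠ 0 → eval₂Hom (Int.castRingHom ℝ) y (UP B i) =
        (Δ i + t * (I i).ua) / ((I i).vb - x i * (I i).ub + t) := by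
      intro i hi
      obtain ⟨-, a2, a3⟩ := hv i hi
      have : (I i).vb - x i * (I i).ub + t ≠ 0 := by linarith
      simp only [UP, ← hI, map_add, map_mul, eval₂Hom_X', hy, if_neg hi, hΔ,
        Int.cast_natCast, map_natCast]
      rw [eq_div_iff this, add_mul, mul_assoc, div_mul_cancel₀ _ this]
      ring
    have hV : ∀ i, deg e i ≠ 0 → eval₂Hom (Int.castRingHom ℝ) y (VP B i) =
        (x i * Δ i + t * (I i).va) / ((I i).vb - x i * (I i).ub + t) := by
      intro i hi
      obtain ⟨-, a2, a3⟩ := hv i hi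
      have : (I i).vb - x i * (I i).ub + t ≠ 0 := by linarith
      simp only [VP, ← hI, map_add, map_mul, map_intCast, eval₂Hom_X', hy, if_neg hi, hΔ]
      field_simp
      ring
    have hD : ∀ i, deg e i ≠ 0 → 0 < Δ i + t * (I i).ua := by
      intro i hi
      obtain ⟨a1, -, -⟩ := hv i hi
      have : 0 ≤ t * (I i).ua := by positivity
      simp only [hΔ]; linarith
    rw [H.map_ev, ev_hom (f t) _ _ _ (degs e).length e
      (fun i hi => List.getD_eq_default _ _ hi) ?_, ← E.eval_eq_ev] at h3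
    · refine nonneg_of_mul_nonneg_left h3 (Finset.prod_pos fun i _ => ?_)
      by_cases hi : deg e i = 0
      · rw [hi, pow_zero]; exact one_pos
      · obtain ⟨-, a2, a3⟩ := hv i hi
        rw [hU i hi]
        exact pow_pos (div_pos (hD i hi) (by linarith)) _
    · intro i hi
      have := (hD i hi).ne'
      rw [hV i hi, hU i hi]
      simp only [hf, if_neg hi]
      field_simp
  have hf0 : f 0 = x := by
    funext i
    simp only [hf]
    split_ifs with hi
    · rfl
    · obtain ⟨a1, -, -⟩ := hv i hi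
      have : Δ i ≠ 0 := by simp only [hΔ]; linarith
      rw [zero_mul, zero_mul, add_zero, add_zero, mul_div_cancel_right₀ _ this]
  have hc : ContinuousAt (fun t => e.eval (f t) (fun j => ps.getD j 0)) 0 := by
    refine E.continuous_eval f 0 (fun i => ?_) _ e
    simp only [hf]
    split_ifs with hi
    · exact continuousAt_const
    · obtain ⟨a1, -, -⟩ := hv i hi
      have : Δ i ≠ 0 := by simp only [hΔ]; linarith
      exact ContinuousAt.div (by fun_prop) (by fun_prop) (by simpa using this)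
  rw [← hf0]
  exact ge_of_tendsto (hc.tendsto.mono_left (nhdsWithin_le_nhds (s := Set.Ioi 0)))
    (eventually_nhdsWithin_of_forall hpos)

theorem chkAll_sound {es : List E} {B : Box} {ps : List ℤ} (h : chkAll es B ps = true)
    {x : ℕ → ℝ} (hx : B.mem x) : ∀ e ∈ es, 0 ≤ e.eval x (fun j => ps.getD j 0) := by
  induction es with
  | nil => simp
  | cons e es ih =>
    obtain ⟨h1, h2⟩ := band_eq_true.mp h
    intro e' he'
    rcases List.mem_cons.mp he' with rfl | he'
    · exact chk_sound h1 hx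
    · exact ih h2 e' he'

/-! ## Trees -/

theorem mem_setHi_or_setLo (u : ℕ) (v : ℤ) {B : Box} (i : ℕ) {x : ℕ → ℝ} (hx : B.mem x) :
    Box.mem (setHi u v B i) x ∨ Box.mem (setLo u v B i) x := by
  induction B generalizing i x with
  | nil => exact Or.inl hx
  | cons I B ih =>
    obtain ⟨h0, h1⟩ := (Box.mem_cons I B x).mp hx
    cases i with
    | zero =>
      rcases le_total (x 0 * u) v with h | h
      · exact Or.inl ((Box.mem_cons _ B x).mpr ⟨⟨h0.1, h⟩, h1⟩)
      · exact Or.inr ((Box.mem_cons _ B x).mpr ⟨⟨h, h0.2⟩, h1⟩)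
    | succ i =>
      rcases ih i h1 with h | h
      · exact Or.inl ((Box.mem_cons I _ x).mpr ⟨h0, h⟩)
      · exact Or.inr ((Box.mem_cons I _ x).mpr ⟨h0, h⟩)

theorem length_setHi (u : ℕ) (v : ℤ) (B : Box) (i : ℕ) : (setHi u v B i).length = B.length := by
  induction B generalizing i with
  | nil => rfl
  | cons I B ih =>
    cases i with
    | zero => rfl
    | succ i => exact congrArg (· + 1) (ih i)

theorem length_setLo (u : ℕ) (v : ℤ) (B : Box) (i : ℕ) : (setLo u v B i).length = B.length := by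
  induction B generalizing i with
  | nil => rfl
  | cons I B ih =>
    cases i with
    | zero => rfl
    | succ i => exact congrArg (· + 1) (ih i)

/-- At every point of `B` one of the families of inequalities `es k` holds for suitable
parameters. -/
def Holds (es : ℕ → List E) (q : List ℤ) (B : Box) : Prop :=
  ∀ x : ℕ → ℝ, B.mem x → ∃ (k : ℕ) (ps : List ℤ),
    ∀ e ∈ es k, 0 ≤ e.eval x (fun j => (q ++ ps).getD j 0)

theorem Holds.split {es : ℕ → List E} {q : List ℤ} {B : Box} (i u : ℕ) (v : ℤ)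
    (hl : Holds es q (setHi u v B i)) (hr : Holds es q (setLo u v B i)) : Holds es q B :=
  fun x hx => (mem_setHi_or_setLo u v i hx).elim (hl x) (hr x)

theorem Holds.of_run {es : ℕ → List E} {t : T} {B : Box} {q : List ℤ}
    (h : run es t B q = true) : Holds es q B := by
  induction t generalizing B with
  | leaf k ps =>
    intro x hx
    have h' : chkAll (es k) B (app q ps) = true := h
    rw [app_eq] at h'
    exact ⟨k, ps, chkAll_sound h' hx⟩
  | split i u v l r ihl ihr =>
    obtain ⟨h1, h2⟩ := band_eq_true.mp h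
    exact Holds.split i u v (ihl h1) (ihr h2)

theorem run_sound {es : ℕ → List E} {t : T} {B : Box} {q : List ℤ} (h : run es t B q = true)
    {x : ℕ → ℝ} (hx : B.mem x) :
    ∃ (k : ℕ) (ps : List ℤ), ∀ e ∈ es k, 0 ≤ e.eval x (fun j => (q ++ ps).getD j 0) :=
  Holds.of_run h x hx

theorem run_split (es : ℕ → List E) (i u : ℕ) (v : ℤ) (l r : T) (B : Box) (q : List ℤ) :
    run es (.split i u v l r) B q =
      band (run es l (setHi u v B i) q) (run es r (setLo u v B i) q) := rfl

/-- Version with a parameter function. -/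
theorem Holds.elim {es : ℕ → List E} {q : List ℤ} {B : Box} (h : Holds es q B) {x : ℕ → ℝ}
    (hx : B.mem x) : ∃ (k : ℕ) (p : ℕ → ℤ), (∀ j < q.length, p j = q.getD j 0) ∧
      ∀ e ∈ es k, 0 ≤ e.eval x p := by
  obtain ⟨k, ps, h⟩ := h x hx
  exact ⟨k, _, fun j hj => List.getD_append _ _ _ _ hj, h⟩

theorem len_eq {α : Type} (a : List α) : len a = a.length := by
  induction a with
  | nil => rfl
  | cons x a ih => exact congrArg (· + 1) ih

/-- For every outer point there are `n` parameters that work for every inner point. -/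
def Holds2 (esA : ℕ → List E) (esB : ℕ → ℕ → List E) (n : ℕ) (C B : Box) : Prop :=
  ∀ x : ℕ → ℝ, B.mem x → ∃ (k : ℕ) (p : ℕ → ℤ), (∀ e ∈ esA k, 0 ≤ e.eval x p) ∧
    ∀ y : ℕ → ℝ, (∀ i < B.length, y i = x i) →
      (∀ (j : ℕ) (h : j < C.length), (C[j]).mem (y (B.length + j))) →
      ∃ (k' : ℕ) (p' : ℕ → ℤ), (∀ j < n, p' j = p j) ∧ ∀ e ∈ esB k k', 0 ≤ e.eval y p'

theorem Holds2.split {esA : ℕ → List E} {esB : ℕ → ℕ → List E} {n : ℕ} {C B : Box} (i u : ℕ)
    (v : ℤ) (hl : Holds2 esA esB n C (setHi u v B i)) (hr : Holds2 esA esB n C (setLo u v B i)) :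
    Holds2 esA esB n C B := by
  intro x hx
  rcases mem_setHi_or_setLo u v i hx with h | h
  · have := hl x h
    rwa [length_setHi] at this
  · have := hr x h
    rwa [length_setLo] at this

theorem Holds2.leaf {esA : ℕ → List E} {esB : ℕ → ℕ → List E} {n : ℕ} {C B : Box} (k : ℕ)
    (ps : List ℤ) (h0 : ps.length = n) (h1 : chkAll (esA k) B ps = true)
    (h2 : Holds (esB k) ps (app B C)) : Holds2 esA esB n C B := by
  intro x hx
  refine ⟨k, _, chkAll_sound h1 hx, fun y hy hC => ?_⟩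
  rw [app_eq] at h2
  subst h0
  exact h2.elim (Box.mem_append (fun i hi => (hy i hi).symm ▸ hx i hi) hC)

theorem Holds2.of_run2 {esA : ℕ → List E} {esB : ℕ → ℕ → List E} {n : ℕ} {C : Box} {t : T2}
    {B : Box} (h : run2 esA esB n C t B = true) : Holds2 esA esB n C B := by
  induction t generalizing B with
  | leaf k ps t =>
    obtain ⟨h0, h⟩ := band_eq_true.mp h
    obtain ⟨h1, h2⟩ := band_eq_true.mp h
    exact Holds2.leaf k ps ((len_eq ps).symm.trans (Nat.eq_of_beq_eq_true h0)) h1 (Holds.of_run h2)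
  | split i u v l r ihl ihr =>
    obtain ⟨h1, h2⟩ := band_eq_true.mp h
    exact Holds2.split i u v (ihl h1) (ihr h2)

theorem run2_sound {esA : ℕ → List E} {esB : ℕ → ℕ → List E} {n : ℕ} {C : Box} {t : T2}
    {B : Box} (h : run2 esA esB n C t B = true) {x : ℕ → ℝ} (hx : B.mem x) :
    ∃ (k : ℕ) (p : ℕ → ℤ), (∀ e ∈ esA k, 0 ≤ e.eval x p) ∧
      ∀ y : ℕ → ℝ, (∀ i < B.length, y i = x i) →
        (∀ (j : ℕ) (h : j < C.length), (C[j]).mem (y (B.length + j))) →
        ∃ (k' : ℕ) (p' : ℕ → ℤ), (∀ j < n, p' j = p j) ∧ ∀ e ∈ esB k k', 0 ≤ e.eval y p' :=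
  Holds2.of_run2 h x hx

/-- Version for points given by coordinate lists: use as `h.elim [x₀, x₁] rfl hx`, and then
`hB [y₀] hy` speaks about the point `pt [x₀, x₁, y₀]` (written `pt ([x₀, x₁] ++ [y₀])`). -/
theorem Holds2.elim {esA : ℕ → List E} {esB : ℕ → ℕ → List E} {n : ℕ} {C B : Box}
    (h : Holds2 esA esB n C B) (l : List ℝ) (hl : l.length = B.length) (hx : B.mem (pt l)) :
    ∃ (k : ℕ) (p : ℕ → ℤ), (∀ e ∈ esA k, 0 ≤ e.eval (pt l) p) ∧
      ∀ m : List ℝ, C.mem (pt m) → ∃ (k' : ℕ) (p' : ℕ → ℤ), (∀ j < n, p' j = p j) ∧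
        ∀ e ∈ esB k k', 0 ≤ e.eval (pt (l ++ m)) p' := by
  obtain ⟨k, p, hA, hB⟩ := h _ hx
  refine ⟨k, p, hA, fun m hm => hB _ (fun i hi => List.getD_append _ _ _ _ (hl ▸ hi)) fun j hj => ?_⟩
  have : pt (l ++ m) (B.length + j) = pt m j := by
    rw [← hl]
    exact (List.getD_append_right _ _ _ _ (Nat.le_add_right _ _)).trans (by simp [pt])
  rw [this]
  exact hm j hj

end Crest.Agent.Lib.PolyBB
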