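/-!
# Verified polynomial branch and bound: the checker (no Mathlib import)

All functions of the hot path are written with raw recursors and raw `Nat` operations, which the
kernel evaluates quickly (`by decide +kernel`).
-/

set_option autoImplicit false

namespace Crest.Agent.Lib.PolyBB

/-- Polynomial expressions in real variables `var i` and integer parameters `par j`. -/
inductive E
  | var (i : Nat)
  | par (j : Nat)
  | cst (z : Int)
  | add (a b : E)
  | sub (a b : E)
  | mul (a b : E)
  | pow (a : E) (k : Nat)

/-- The closed interval `[va / ua, vb / ub]`; `ub = 0, vb = 1` is `[va / ua, +∞)` and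
`ua = 0, va = -1` is `(-∞, vb / ub]`. -/
structure Iv where
  ua : Nat
  va : Int
  ub : Nat
  vb : Int

abbrev Box := List Iv

/-! ## Signed numbers -/

/-- Sign-magnitude integers. -/
inductive Z
  | pos (n : Nat)
  | neg (n : Nat)

namespace Z

def val : Z → Int
  | pos n => n
  | neg n => -n

noncomputable def dif (m n : Nat) : Z :=
  Bool.rec (motive := fun _ => Z) (neg (Nat.sub n m)) (pos (Nat.sub m n)) (Nat.ble n m)

noncomputable def add (a b : Z) : Z :=
  Z.rec (motive := fun _ => Z)
    (fun m => Z.rec (motive := fun _ => Z) (fun n => pos (Nat.add m n)) (fun n => dif m n) b)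
    (fun m => Z.rec (motive := fun _ => Z) (fun n => dif n m) (fun n => neg (Nat.add m n)) b) a

noncomputable def sub (a b : Z) : Z :=
  Z.rec (motive := fun _ => Z)
    (fun m => Z.rec (motive := fun _ => Z) (fun n => dif m n) (fun n => pos (Nat.add m n)) b)
    (fun m => Z.rec (motive := fun _ => Z) (fun n => neg (Nat.add m n)) (fun n => dif n m) b) a

noncomputable def mul (a b : Z) : Z :=
  Z.rec (motive := fun _ => Z)
    (fun m => Z.rec (motive := fun _ => Z) (fun n => pos (Nat.mul m n))
      (fun n => neg (Nat.mul m n)) b)
    (fun m => Z.rec (motive := fun _ => Z) (fun n => neg (Nat.mul m n))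
      (fun n => pos (Nat.mul m n)) b) a

noncomputable def pow (a : Z) (k : Nat) : Z :=
  Z.rec (motive := fun _ => Z) (fun m => pos (Nat.pow m k))
    (fun m => Bool.rec (motive := fun _ => Z) (neg (Nat.pow m k)) (pos (Nat.pow m k))
      (Nat.beq (Nat.mod k 2) 0)) a

noncomputable def shl (a : Z) (s : Nat) : Z :=
  Z.rec (motive := fun _ => Z) (fun m => pos (Nat.shiftLeft m s))
    (fun m => neg (Nat.shiftLeft m s)) a

noncomputable def ofInt (z : Int) : Z :=
  Int.rec (motive := fun _ => Z) (fun n => pos n) (fun n => neg (Nat.succ n)) z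

end Z

noncomputable def iabs (z : Int) : Nat :=
  Int.rec (motive := fun _ => Nat) (fun n => n) (fun n => Nat.succ n) z

/-- List lookup with a default value. -/
noncomputable def nth {α : Type} (d : α) (l : List α) : Nat → α :=
  List.rec (motive := fun _ => Nat → α) (fun _ => d)
    (fun a _ ih i => Nat.rec (motive := fun _ => α) a (fun j _ => ih j) i) l

noncomputable def band (a b : Bool) : Bool := Bool.rec (motive := fun _ => Bool) false b a

/-! ## Degrees and homogenisation (box independent) -/

/-- Pointwise combination of two lists padded with zeros (`f` with `f a 0 = a`, `f 0 b = b`). -/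
noncomputable def lzip (f : Nat → Nat → Nat) (a : List Nat) : List Nat → List Nat :=
  List.rec (motive := fun _ => List Nat → List Nat) (fun b => b)
    (fun x a ih b => List.rec (motive := fun _ => List Nat) (x :: a)
      (fun y b _ => f x y :: ih b) b) a

noncomputable def nmax (a b : Nat) : Nat := Bool.rec (motive := fun _ => Nat) a b (Nat.ble a b)

noncomputable def lsm (k : Nat) (a : List Nat) : List Nat :=
  List.rec (motive := fun _ => List Nat) [] (fun x _ ih => Nat.mul x k :: ih) a

noncomputable def lone (i : Nat) : List Nat :=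
  Nat.rec (motive := fun _ => List Nat) [1] (fun _ ih => 0 :: ih) i

/-- The (syntactic) degree in each variable. -/
noncomputable def degs (e : E) : List Nat :=
  E.rec (motive := fun _ => List Nat) lone (fun _ => []) (fun _ => [])
    (fun _ _ a b => lzip nmax a b) (fun _ _ a b => lzip nmax a b)
    (fun _ _ a b => lzip Nat.add a b) (fun _ k a => lsm k a) e

/-- Homogenised expressions: `v i` is the numerator and `u i` the denominator of variable `i`. -/
inductive H
  | v (i : Nat)
  | u (i : Nat)
  | par (j : Nat)
  | cst (z : Int)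
  | add (a b : H)
  | sub (a b : H)
  | mul (a b : H)
  | pow (a : H) (k : Nat)

/-- `u i ^ k` for `k ≥ 1`. -/
noncomputable def upw (i k : Nat) : H :=
  Bool.rec (motive := fun _ => H) (H.pow (H.u i) k) (H.u i) (Nat.beq k 1)

/-- The product of the `u (i + j) ^ (b j - a j)`, `none` if it is empty. -/
noncomputable def ups (b : List Nat) : List Nat → Nat → Option H :=
  List.rec (motive := fun _ => List Nat → Nat → Option H) (fun _ _ => none)
    (fun y _ ih a i =>
      (fun (x : Nat) (o : Option H) =>
        Bool.rec (motive := fun _ => Option H)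
          (some (Option.rec (motive := fun _ => H) (upw i (Nat.sub y x))
            (fun h => H.mul (upw i (Nat.sub y x)) h) o)) o (Nat.ble y x))
      (List.rec (motive := fun _ => Nat) 0 (fun x _ _ => x) a)
      (ih (List.rec (motive := fun _ => List Nat) [] (fun _ a _ => a) a) (Nat.succ i))) b

/-- Lift `h` from degree `a` to degree `max a b`. -/
noncomputable def lift (h : H) (a b : List Nat) : H :=
  Option.rec (motive := fun _ => H) h (fun w => H.mul h w) (ups b a 0)

noncomputable def hom (e : E) : H :=
  E.rec (motive := fun _ => H) H.v H.par H.cst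
    (fun a b ha hb => H.add (lift ha (degs a) (degs b)) (lift hb (degs b) (degs a)))
    (fun a b ha hb => H.sub (lift ha (degs a) (degs b)) (lift hb (degs b) (degs a)))
    (fun _ _ ha hb => H.mul ha hb) (fun _ k ha => H.pow ha k) e

/-! ## Evaluation

An expression is compiled once to nested closures. A subexpression that depends on fewer variables
than its parent is evaluated in a restricted environment, so that the kernel finds its value in its
cache when another leaf has the same intervals for these variables. -/

/-- Environments: numerators and denominators of the variables, parameters. -/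
structure Cx (α : Type) where
  l : List (α × α)
  p : List α

/-- Compiled expressions. -/
structure Cl (α : Type) where
  f : Cx α → α

/-- Compiled restriction of the list of variables. -/
structure Rs (α : Type) where
  f : List (α × α) → (List (α × α) → Cx α) → Cx α

/-- `k n`, with `n` evaluated first. -/
noncomputable def force {β : Type} (n : Nat) (k : Nat → β) : β :=
  Nat.rec (motive := fun _ => β) (k 0) (fun m _ => k (Nat.succ m)) n

noncomputable def mkR {α : Type} (z : α) (fuel : Nat) : Nat → Rs α :=
  Nat.rec (motive := fun _ => Nat → Rs α) (fun _ => ⟨fun l k => k l⟩)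
    (fun _ ih m => Bool.rec (motive := fun _ => Rs α)
      ((fun nx : Rs α => Bool.rec (motive := fun _ => Rs α)
        ⟨fun l k => List.rec (motive := fun _ => Cx α) (k [])
          (fun x l _ => nx.1 l (fun r => k (x :: r))) l⟩
        ⟨fun l k => List.rec (motive := fun _ => Cx α) (k [])
          (fun _ l _ => nx.1 l (fun r => k ((z, z) :: r))) l⟩
        (Nat.beq (Nat.land m 1) 0)) (ih (Nat.shiftRight m 1)))
      ⟨fun _ k => k []⟩ (Nat.beq m 0)) fuel

/-- Restriction that keeps the parameters. -/
noncomputable def rcx1 {α : Type} (r : Rs α) (c : Cx α) : Cx α :=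
  Cx.rec (motive := fun _ => Cx α) (fun l p => r.1 l (fun l => ⟨l, p⟩)) c

/-- Restriction that forgets the parameters. -/
noncomputable def rcx0 {α : Type} (r : Rs α) (c : Cx α) : Cx α :=
  Cx.rec (motive := fun _ => Cx α) (fun l _ => r.1 l (fun l => ⟨l, []⟩)) c

/-- Evaluate `a` in the environment restricted to the mask `m`. -/
noncomputable def only {α : Type} (z : α) (m : Nat) (a : Cl α) : Cl α :=
  force (Nat.shiftRight m 1) (fun m' => Bool.rec (motive := fun _ => Cl α)
    ⟨fun c => Cx.rec (motive := fun _ => α) (fun l p => a.1 ⟨l, p⟩) (rcx1 (mkR z 32 m') c)⟩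
    ⟨fun c => Cx.rec (motive := fun _ => α) (fun l p => a.1 ⟨l, p⟩) (rcx0 (mkR z 32 m') c)⟩
    (Nat.beq (Nat.land m 1) 0))

/-- Bit `0`: parameters occur; bit `i + 1`: variable `i` occurs. -/
noncomputable def msk (h : H) : Nat :=
  H.rec (motive := fun _ => Nat) (fun i => Nat.shiftLeft 2 i) (fun i => Nat.shiftLeft 2 i)
    (fun _ => 1) (fun _ => 0) (fun _ _ a b => Nat.lor a b) (fun _ _ a b => Nat.lor a b)
    (fun _ _ a b => Nat.lor a b) (fun _ _ a => a) h

noncomputable def atom (h : H) : Bool :=
  H.rec (motive := fun _ => Bool) (fun _ => true) (fun _ => true) (fun _ => true) (fun _ => true)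
    (fun _ _ _ _ => false) (fun _ _ _ _ => false) (fun _ _ _ _ => false) (fun _ _ _ => false) h

noncomputable def sel {α : Type} (z : α) (a b : H) (ca : Cl α) (k : Cl α → Cl α) : Cl α :=
  Bool.rec (motive := fun _ => Cl α)
    (Bool.rec (motive := fun _ => Cl α) (k (only z (msk a) ca)) (k ca) (atom a))
    (k ca) (Nat.beq (Nat.lor (msk a) (msk b)) (msk a))

noncomputable def bin {α : Type} (z : α) (f : α → α → α) (a b : H) (ca cb : Cl α) : Cl α :=
  sel z a b ca (fun ca => sel z b a cb (fun cb => ⟨fun c => f (ca.1 c) (cb.1 c)⟩))

noncomputable def comp {α : Type} (z : α) (add sub mul : α → α → α) (pow : α → Nat → α)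
    (cst : Int → Cl α) (h : H) : Cl α :=
  H.rec (motive := fun _ => Cl α)
    (fun i => ⟨fun c => (nth (z, z) c.1 i).1⟩) (fun i => ⟨fun c => (nth (z, z) c.1 i).2⟩)
    (fun j => ⟨fun c => nth z c.2 j⟩) cst (bin z add) (bin z sub) (bin z mul)
    (fun _ k a => ⟨fun c => pow (a.1 c) k⟩) h

noncomputable def cstZ (z : Int) : Cl Z :=
  Int.rec (motive := fun _ => Cl Z) (fun n => ⟨fun _ => Z.pos n⟩)
    (fun n => force (Nat.succ n) (fun m => ⟨fun _ => Z.neg m⟩)) z

noncomputable def cstN (z : Int) : Cl Nat := force (iabs z) (fun m => ⟨fun _ => m⟩)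

noncomputable def compZ (h : H) : Cl Z := comp (Z.pos 0) Z.add Z.sub Z.mul Z.pow cstZ h

noncomputable def compN (h : H) : Cl Nat := comp 0 Nat.add Nat.add Nat.mul Nat.pow cstN h

noncomputable def lmap {α β : Type} (f : α → β) (l : List α) : List β :=
  List.rec (motive := fun _ => List β) [] (fun a _ ih => f a :: ih) l

noncomputable def envN (B : Box) : List (Nat × Nat) :=
  List.rec (motive := fun _ => List (Nat × Nat)) []
    (fun I _ ih => Iv.rec (motive := fun _ => List (Nat × Nat))
      (fun ua va ub vb => (Nat.add (iabs va) (iabs vb), Nat.add ua ub) :: ih) I) B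

noncomputable def envZ (B : Box) : List Nat → List (Z × Z) :=
  List.rec (motive := fun _ => List Nat → List (Z × Z)) (fun _ => [])
    (fun I _ ih st => Iv.rec (motive := fun _ => List (Z × Z)) (fun ua va ub vb =>
      List.rec (motive := fun _ => List (Z × Z))
        ((Z.add (Z.ofInt va) (Z.ofInt vb), Z.pos (Nat.add ua ub)) :: ih [])
        (fun s st _ => (Z.add (Z.ofInt va) (Z.shl (Z.ofInt vb) s),
          Z.pos (Nat.add ua (Nat.shiftLeft ub s))) :: ih st) st) I) B

/-- Bound for the sum of the absolute values of the coefficients. -/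
noncomputable def evN (B : Box) (ps : List Int) (h : H) : Nat :=
  (compN h).1 ⟨envN B, lmap iabs ps⟩

/-- Kronecker evaluation. -/
noncomputable def evZ (B : Box) (st : List Nat) (ps : List Int) (h : H) : Z :=
  (compZ h).1 ⟨envZ B st, lmap Z.ofInt ps⟩

/-- The strides `s * ∏_{j < i} (d j + 1)`. -/
noncomputable def strides (ds : List Nat) : Nat → List Nat :=
  List.rec (motive := fun _ => Nat → List Nat) (fun _ => [])
    (fun d _ ih s => s :: ih (Nat.mul s (Nat.succ d))) ds

/-- The top bits of the first `2 ^ j` digits in base `2 ^ K`. -/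
noncomputable def mask (K j : Nat) : Nat :=
  Nat.rec (motive := fun _ => Nat) (Nat.shiftLeft 1 (Nat.pred K))
    (fun j ih => Nat.lor ih (Nat.shiftLeft ih (Nat.shiftLeft K j))) j

/-- All balanced digits in base `2 ^ K` are nonnegative. -/
noncomputable def digOK (K j : Nat) (z : Z) : Bool :=
  Z.rec (motive := fun _ => Bool)
    (fun N => band (Nat.beq (Nat.shiftRight N (Nat.shiftLeft K j)) 0)
      (Nat.beq (Nat.land N (mask K j)) 0))
    (fun N => Nat.beq N 0) z

/-- Binary logarithm of numbers below `2 ^ 2 ^ 24` (not trusted). -/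
noncomputable def lg (n : Nat) : Nat :=
  Nat.rec (motive := fun _ => Nat → Nat) (fun _ => 0)
    (fun j ih n => (fun m => Bool.rec (motive := fun _ => Nat)
      (Nat.add (Nat.shiftLeft 1 j) (ih m)) (ih n) (Nat.beq m 0))
        (Nat.shiftRight n (Nat.shiftLeft 1 j))) 24 n

/-- The logarithm of the number of coefficients (not trusted). -/
noncomputable def lgT (ds : List Nat) : Nat :=
  Nat.succ (lg (Nat.pred
    (List.rec (motive := fun _ => Nat) 1 (fun d _ ih => Nat.mul (Nat.succ d) ih) ds)))

/-- `va * ub < vb * ua`. -/
noncomputable def Iv.ok (I : Iv) : Bool :=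
  Iv.rec (motive := fun _ => Bool) (fun ua va ub vb =>
    Z.rec (motive := fun _ => Bool) (fun n => Nat.ble 1 n) (fun _ => false)
      (Z.sub (Z.mul (Z.ofInt vb) (Z.pos ua)) (Z.mul (Z.ofInt va) (Z.pos ub)))) I

/-- The intervals of the variables that occur are proper. -/
noncomputable def valid (ds : List Nat) : Box → Bool :=
  List.rec (motive := fun _ => Box → Bool) (fun _ => true)
    (fun d _ ih B => List.rec (motive := fun _ => Bool) (band (Nat.beq d 0) (ih []))
      (fun I B _ => band (Bool.rec (motive := fun _ => Bool) I.ok true (Nat.beq d 0)) (ih B)) B) ds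

noncomputable def chkK (h : H) (ds : List Nat) (B : Box) (ps : List Int) (n K : Nat) : Bool :=
  band (Nat.beq (Nat.shiftRight n (Nat.pred K)) 0) (digOK K (lgT ds) (evZ B (strides ds K) ps h))

/-- The largest multiple `k` of `32` with `n >>> k ≠ 0` (not trusted). -/
noncomputable def lg32 (n : Nat) : Nat :=
  Bool.rec (motive := fun _ => Nat) (lg n)
    (List.rec (motive := fun _ => Nat → Nat) (fun k => k)
      (fun s _ ih k => Bool.rec (motive := fun _ => Nat) (ih (Nat.add k s)) (ih k)
        (Nat.beq (Nat.shiftRight n (Nat.add k s)) 0)) [2048, 1024, 512, 256, 128, 64, 32] 0)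
    (Nat.beq (Nat.shiftRight n 4096) 0)

noncomputable def chkN (h : H) (ds : List Nat) (B : Box) (ps : List Int) (n : Nat) : Bool :=
  force (Nat.add (lg32 n) 33) (chkK h ds B ps n)

noncomputable def chkH (h : H) (ds : List Nat) (B : Box) (ps : List Int) : Bool :=
  band (valid ds B) (chkN h ds B ps (evN B ps h))

/-- The leaf test. -/
noncomputable def chk (e : E) (B : Box) (ps : List Int) : Bool := chkH (hom e) (degs e) B ps

noncomputable def chkAll (es : List E) (B : Box) (ps : List Int) : Bool :=
  List.rec (motive := fun _ => Bool) true (fun e _ ih => band (chk e B ps) ih) es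

/-! ## Trees -/

/-- Replace the upper end of interval `i` by `v / u`. -/
noncomputable def setHi (u : Nat) (v : Int) (B : Box) : Nat → Box :=
  List.rec (motive := fun _ => Nat → Box) (fun _ => [])
    (fun I B ih i => Nat.rec (motive := fun _ => Box)
      (Iv.rec (motive := fun _ => Box) (fun ua va _ _ => ⟨ua, va, u, v⟩ :: B) I)
      (fun j _ => I :: ih j) i) B

/-- Replace the lower end of interval `i` by `v / u`. -/
noncomputable def setLo (u : Nat) (v : Int) (B : Box) : Nat → Box :=
  List.rec (motive := fun _ => Nat → Box) (fun _ => [])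
    (fun I B ih i => Nat.rec (motive := fun _ => Box)
      (Iv.rec (motive := fun _ => Box) (fun _ _ ub vb => ⟨u, v, ub, vb⟩ :: B) I)
      (fun j _ => I :: ih j) i) B

noncomputable def app {α : Type} (a b : List α) : List α :=
  List.rec (motive := fun _ => List α) b (fun x _ ih => x :: ih) a

/-- Branch and bound trees. -/
inductive T
  | leaf (k : Nat) (ps : List Int)
  | split (i : Nat) (u : Nat) (v : Int) (l r : T)

noncomputable def run (es : Nat → List E) (t : T) : Box → List Int → Bool :=
  T.rec (motive := fun _ => Box → List Int → Bool)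
    (fun k ps B q => chkAll (es k) B (app q ps))
    (fun i u v _ _ l r B q => band (l (setHi u v B i) q) (r (setLo u v B i) q)) t

/-- The `n` bits of `s` from position `a` on. -/
noncomputable def bits (s a n : Nat) : Nat :=
  Nat.land (Nat.shiftRight s a) (Nat.sub (Nat.shiftLeft 1 n) 1)

noncomputable def decZ (sg m : Nat) (k : Int → T) : T :=
  force m (fun m => Bool.rec (motive := fun _ => T) (k (Int.negSucc m)) (k (Int.ofNat m))
    (Nat.beq sg 0))

noncomputable def decP (fuel : Nat) : Nat → (List Int → T) → T :=
  Nat.rec (motive := fun _ => Nat → (List Int → T) → T) (fun _ k => k [])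
    (fun _ ih s k => Bool.rec (motive := fun _ => T)
      (decZ (Nat.land s 1024) (bits s 11 (Nat.land s 1023)) (fun z =>
        ih (Nat.shiftRight s (Nat.add (Nat.land s 1023) 11)) (fun l => k (z :: l))))
      (k []) (Nat.beq s 0)) fuel

/-- A tree read from the bits of a number (short files, fast elaboration). -/
noncomputable def dec (fuel : Nat) : Nat → T :=
  Nat.rec (motive := fun _ => Nat → T) (fun _ => T.leaf 0 [])
    (fun _ ih s => Bool.rec (motive := fun _ => T)
      ((fun h => force (Nat.land (Nat.shiftRight h 1) 15) (fun i =>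
        force (Nat.land (Nat.shiftRight h 28) 16777215) (fun u =>
          decZ (Nat.land h 32) (Nat.shiftRight h 52) (fun v =>
            T.split i u v (ih (bits s 76 (Nat.land (Nat.shiftRight h 6) 4194303)))
              (ih (Nat.shiftRight s (Nat.add (Nat.land (Nat.shiftRight h 6) 4194303) 76)))))))
        (Nat.land s 75557863725914323419135))
      (force (Nat.land (Nat.shiftRight s 1) 1023) (fun k =>
        decP 1000 (Nat.shiftRight s 11) (fun ps => T.leaf k ps)))
      (Nat.beq (Nat.land s 1) 0)) fuel

/-- Two level trees. -/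
inductive T2
  | leaf (k : Nat) (ps : List Int) (t : T)
  | split (i : Nat) (u : Nat) (v : Int) (l r : T2)

noncomputable def len {α : Type} (a : List α) : Nat :=
  List.rec (motive := fun _ => Nat) 0 (fun _ _ ih => Nat.succ ih) a

/-- `n` is the number of outer parameters, `C` the box of the inner variables. -/
noncomputable def run2 (esA : Nat → List E) (esB : Nat → Nat → List E) (n : Nat) (C : Box)
    (t : T2) : Box → Bool :=
  T2.rec (motive := fun _ => Box → Bool)
    (fun k ps t B => band (Nat.beq (len ps) n)
      (band (chkAll (esA k) B ps) (run (esB k) t (app B C) ps)))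
    (fun i u v _ _ l r B => band (l (setHi u v B i)) (r (setLo u v B i))) t

end Crest.Agent.Lib.PolyBB
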