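import Crest.Agent.Lib.PolyBB.Spec

/-!
# Verified polynomial branch and bound: Kronecker substitution
-/

set_option autoImplicit false

open MvPolynomial

namespace Crest.Agent.Lib.PolyBB

/-- `n` bounds the sum of the absolute values of the coefficients of `P`. -/
def Bd (P : MvPolynomial ℕ ℤ) (n : ℕ) : Prop :=
  ∃ A B : MvPolynomial ℕ ℕ, P = map (Nat.castRingHom ℤ) A - map (Nat.castRingHom ℤ) B ∧
    eval (fun _ => 1) A + eval (fun _ => 1) B ≤ n

theorem Bd.add {P Q : MvPolynomial ℕ ℤ} {m n : ℕ} (h : Bd P m) (h' : Bd Q n) :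
    Bd (P + Q) (m + n) := by
  obtain ⟨A, B, rfl, h⟩ := h
  obtain ⟨A', B', rfl, h'⟩ := h'
  refine ⟨A + A', B + B', by simp only [map_add]; ring, ?_⟩
  simp only [map_add]; omega

theorem Bd.sub {P Q : MvPolynomial ℕ ℤ} {m n : ℕ} (h : Bd P m) (h' : Bd Q n) :
    Bd (P - Q) (m + n) := by
  obtain ⟨A, B, rfl, h⟩ := h
  obtain ⟨A', B', rfl, h'⟩ := h'
  refine ⟨A + B', B + A', by simp only [map_add]; ring, ?_⟩
  simp only [map_add]; omega

theorem Bd.mul {P Q : MvPolynomial ℕ ℤ} {m n : ℕ} (h : Bd P m) (h' : Bd Q n) :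
    Bd (P * Q) (m * n) := by
  obtain ⟨A, B, rfl, h⟩ := h
  obtain ⟨A', B', rfl, h'⟩ := h'
  refine ⟨A * A' + B * B', A * B' + B * A', by simp only [map_add, map_mul]; ring, ?_⟩
  simp only [map_add, map_mul]
  refine le_trans (le_of_eq ?_) (Nat.mul_le_mul h h')
  ring

theorem Bd.intCast (z : ℤ) : Bd (z : MvPolynomial ℕ ℤ) z.natAbs := by
  rcases Int.natAbs_eq z with h | h
  · refine ⟨(z.natAbs : MvPolynomial ℕ ℕ), 0, ?_, by simp⟩
    rw [map_natCast, map_zero, sub_zero]
    conv_lhs => rw [h]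
    exact Int.cast_natCast _
  · refine ⟨0, (z.natAbs : MvPolynomial ℕ ℕ), ?_, by simp⟩
    rw [map_natCast, map_zero, zero_sub]
    conv_lhs => rw [h]
    rw [Int.cast_neg, Int.cast_natCast]

theorem Bd.pow {P : MvPolynomial ℕ ℤ} {m : ℕ} (h : Bd P m) (k : ℕ) : Bd (P ^ k) (m ^ k) := by
  induction k with
  | zero => simpa using Bd.intCast 1
  | succ k ih => rw [pow_succ, pow_succ]; exact ih.mul h

theorem Bd.X (i : ℕ) : Bd (X i) 1 := ⟨MvPolynomial.X i, 0, by simp, by simp⟩

theorem Bd.lin (a b : ℤ) (i : ℕ) :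
    Bd ((a : MvPolynomial ℕ ℤ) + (b : MvPolynomial ℕ ℤ) * MvPolynomial.X i)
      (a.natAbs + b.natAbs) := by
  simpa using (Bd.intCast a).add ((Bd.intCast b).mul (Bd.X i))

theorem sum_coeff_le (A : MvPolynomial ℕ ℕ) (S : Finset (ℕ →₀ ℕ)) :
    ∑ α ∈ S, coeff α A ≤ eval (fun _ => 1) A := by
  rw [eval_eq]
  simp only [one_pow, Finset.prod_const_one, mul_one]
  exact Finset.sum_le_sum_of_ne_zero fun α _ h => mem_support_iff.mpr h

theorem Bd.sum_le {P : MvPolynomial ℕ ℤ} {n : ℕ} (h : Bd P n) :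
    ∑ α ∈ P.support, |coeff α P| ≤ n := by
  obtain ⟨A, B, hP, h⟩ := h
  have h1 := sum_coeff_le A P.support
  have h2 := sum_coeff_le B P.support
  calc ∑ α ∈ P.support, |coeff α P|
      ≤ ∑ α ∈ P.support, ((coeff α A + coeff α B : ℕ) : ℤ) := by
        refine Finset.sum_le_sum fun α _ => ?_
        rw [hP, coeff_sub, coeff_map, coeff_map]
        simp only [eq_natCast, Nat.cast_add]
        rw [abs_le]; constructor <;> omega
    _ ≤ n := by
        rw [← Nat.cast_sum, Finset.sum_add_distrib]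
        exact_mod_cast (Nat.add_le_add h1 h2).trans h

/-- The digit argument. -/
theorem digits_nonneg {ι : Type} (S : Finset ι) (c : ι → ℤ) (k : ι → ℕ) (hk : Set.InjOn k S)
    (K : ℕ) (hc : ∑ a ∈ S, |c a| < 2 ^ K) (N : ℕ)
    (hN : (N : ℤ) = ∑ a ∈ S, c a * 2 ^ ((K + 1) * k a))
    (hb : ∀ j, N.testBit ((K + 1) * j + K) = false) : ∀ a ∈ S, 0 ≤ c a := by
  classical
  by_contra hcon
  push Not at hcon
  obtain ⟨a0, ha0, hmin⟩ := (S.filter fun a => c a < 0).exists_min_image k
    (by obtain ⟨a, ha, h⟩ := hcon; exact ⟨a, Finset.mem_filter.mpr ⟨ha, h⟩⟩)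
  obtain ⟨ha0, hneg⟩ := Finset.mem_filter.mp ha0
  set k0 := k a0 with hk0
  set L := ∑ a ∈ (S.erase a0).filter (fun a => k a < k0), c a * 2 ^ ((K + 1) * k a) with hL
  set M := ∑ a ∈ (S.erase a0).filter (fun a => ¬ k a < k0),
    c a * 2 ^ ((K + 1) * (k a - (k0 + 1))) with hM
  have e1 : (N : ℤ) = c a0 * 2 ^ ((K + 1) * k0) + (L + 2 ^ ((K + 1) * (k0 + 1)) * M) := by
    rw [hN, ← Finset.add_sum_erase _ _ ha0,
      ← Finset.sum_filter_add_sum_filter_not (S.erase a0) (fun a => k a < k0), hM, Finset.mul_sum]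
    congr 2
    refine Finset.sum_congr rfl fun a ha => ?_
    obtain ⟨ha1, ha2⟩ := Finset.mem_filter.mp ha
    obtain ⟨ha3, ha4⟩ := Finset.mem_erase.mp ha1
    have : k a ≠ k0 := fun h => ha3 (hk ha4 ha0 h)
    rw [mul_left_comm, ← pow_add, ← mul_add]
    congr 3; omega
  have hL0 : 0 ≤ L := Finset.sum_nonneg fun a ha => by
    obtain ⟨ha1, ha2⟩ := Finset.mem_filter.mp ha
    have : 0 ≤ c a := by
      by_contra h
      have := hmin a (Finset.mem_filter.mpr ⟨Finset.mem_of_mem_erase ha1, not_le.mp h⟩)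
      omega
    positivity
  have hL1 : L < 2 ^ ((K + 1) * k0) := by
    rcases Nat.eq_zero_or_pos k0 with h0 | h0
    · rw [hL, Finset.sum_eq_zero (fun a ha => by have := (Finset.mem_filter.mp ha).2; omega)]
      positivity
    have h1 : L ≤ (∑ a ∈ S, |c a|) * 2 ^ ((K + 1) * (k0 - 1)) := by
      rw [Finset.sum_mul]
      refine le_trans (Finset.sum_le_sum (g := fun a => |c a| * 2 ^ ((K + 1) * (k0 - 1)))
        fun a ha => ?_) (Finset.sum_le_sum_of_subset_of_nonneg
          ((Finset.filter_subset _ _).trans (Finset.erase_subset _ _)) fun a _ _ => by positivity)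
      have := (Finset.mem_filter.mp ha).2
      exact mul_le_mul (le_abs_self _)
        (pow_le_pow_right₀ (by norm_num) (Nat.mul_le_mul_left _ (by omega))) (by positivity)
        (abs_nonneg _)
    have h2 : (2 : ℤ) ^ ((K + 1) * k0) = 2 ^ (K + 1) * 2 ^ ((K + 1) * (k0 - 1)) := by
      rw [← pow_add]; congr 1
      obtain ⟨m, hm⟩ : ∃ m, k0 = m + 1 := ⟨k0 - 1, by omega⟩
      simp only [hm, Nat.add_sub_cancel]; ring
    rw [h2]
    refine h1.trans_lt (mul_lt_mul_of_pos_right (hc.trans ?_) (by positivity))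
    exact pow_lt_pow_right₀ (by norm_num) (Nat.lt_succ_self K)
  have hc0 : -2 ^ K ≤ c a0 := by
    have := Finset.single_le_sum (f := fun a => |c a|) (fun a _ => abs_nonneg _) ha0
    have := neg_abs_le (c a0)
    linarith
  set D : ℤ := 2 ^ ((K + 1) * k0) with hD
  have hDpos : 0 < D := by positivity
  have e2 : (N : ℤ) = (L + D * (c a0 + 2 ^ K)) + (D * 2 ^ K) * (2 * M - 1) := by
    rw [e1, mul_add (K + 1) k0 1, pow_add, mul_one, pow_succ]; ring
  have e3 : (N : ℤ) / (D * 2 ^ K) = 2 * M - 1 := by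
    rw [e2, Int.add_mul_ediv_left _ _ (by positivity), Int.ediv_eq_zero_of_lt, zero_add]
    · have : 0 ≤ c a0 + 2 ^ K := by linarith
      positivity
    · nlinarith
  have e4 := hb k0
  rw [Nat.testBit_eq_decide_div_mod_eq] at e4
  have e5 : ((N / 2 ^ ((K + 1) * k0 + K) : ℕ) : ℤ) = 2 * M - 1 := by
    rw [← e3, hD, ← pow_add]; push_cast; rfl
  simp only [decide_eq_false_iff_not] at e4
  omega

theorem testBit_mask (K j i : ℕ) (h : i < 2 ^ j) :
    (mask (K + 1) j).testBit ((K + 1) * i + K) = true := by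
  induction j generalizing i with
  | zero =>
    obtain rfl : i = 0 := by simpa using h
    change (1 <<< K).testBit _ = true
    simp [Nat.one_shiftLeft]
  | succ j ih =>
    change (mask (K + 1) j ||| mask (K + 1) j <<< ((K + 1) <<< j)).testBit _ = true
    rw [Nat.testBit_or, Bool.or_eq_true]
    by_cases hi : i < 2 ^ j
    · exact Or.inl (ih i hi)
    · right
      obtain ⟨i, rfl⟩ : ∃ m, i = 2 ^ j + m := ⟨i - 2 ^ j, by omega⟩
      rw [Nat.testBit_shiftLeft, Nat.shiftLeft_eq, mul_add, add_assoc, Nat.add_sub_cancel_left,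
        ih i (by rw [pow_succ] at h; omega)]
      simp

theorem lt_of_shiftRight {n s : ℕ} (h : Nat.beq (Nat.shiftRight n s) 0 = true) : n < 2 ^ s := by
  have h1 : n >>> s = 0 := Nat.eq_of_beq_eq_true h
  rw [Nat.shiftRight_eq_div_pow] at h1
  exact (Nat.div_eq_zero_iff_lt (by positivity)).mp h1

theorem digOK_spec {K j : ℕ} {z : Z} (h : digOK (K + 1) j z = true) :
    ∃ N : ℕ, (N : ℤ) = z.val ∧ ∀ i, N.testBit ((K + 1) * i + K) = false := by
  cases z with
  | pos N =>
    obtain ⟨h1, h2⟩ := band_eq_true.mp h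
    refine ⟨N, rfl, fun i => ?_⟩
    by_cases hi : i < 2 ^ j
    · have h3 : N &&& mask (K + 1) j = 0 := Nat.eq_of_beq_eq_true h2
      have h4 := congrArg (fun n => n.testBit ((K + 1) * i + K)) h3
      simpa [Nat.testBit_and, testBit_mask K j i hi] using h4
    · have h3 : N < 2 ^ ((K + 1) <<< j) := lt_of_shiftRight h1
      rw [Nat.shiftLeft_eq] at h3
      refine Nat.testBit_eq_false_of_lt (h3.trans_le (Nat.pow_le_pow_right (by norm_num) ?_))
      have := Nat.mul_le_mul_left (K + 1) (not_lt.mp hi)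
      omega
  | neg N =>
    obtain rfl : N = 0 := Nat.eq_of_beq_eq_true h
    exact ⟨0, rfl, fun i => by simp⟩

/-- Mixed radix weights. -/
def str (d : ℕ → ℕ) (i : ℕ) : ℕ := ∏ j ∈ Finset.range i, (d j + 1)

theorem getD_strides (ds : List ℕ) (s i : ℕ) (hi : i < ds.length) :
    (strides ds s).getD i 0 = s * str (fun j => ds.getD j 0) i := by
  induction ds generalizing s i with
  | nil => simp at hi
  | cons d ds ih =>
    cases i with
    | zero => simp [str]; rfl
    | succ i =>
      refine (ih (s * (d + 1)) i (by simpa using hi)).trans ?_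
      simp only [str, Finset.prod_range_succ', List.getD_cons_succ, List.getD_cons_zero]
      ring

theorem radix_lt (d a : ℕ → ℕ) (ha : ∀ i, a i ≤ d i) (n : ℕ) :
    ∑ i ∈ Finset.range n, str d i * a i < str d n := by
  induction n with
  | zero => simp [str]
  | succ n ih =>
    rw [Finset.sum_range_succ, show str d (n + 1) = str d n * (d n + 1) from
      Finset.prod_range_succ _ _]
    have := Nat.mul_le_mul_left (str d n) (ha n)
    rw [mul_add, mul_one]
    omega

theorem radix_inj (d a b : ℕ → ℕ) (ha : ∀ i, a i ≤ d i) (hb : ∀ i, b i ≤ d i) (n : ℕ)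
    (h : ∑ i ∈ Finset.range n, str d i * a i = ∑ i ∈ Finset.range n, str d i * b i) :
    ∀ i < n, a i = b i := by
  induction n with
  | zero => simp
  | succ n ih =>
    rw [Finset.sum_range_succ, Finset.sum_range_succ] at h
    have h1 := radix_lt d a ha n
    have h2 := radix_lt d b hb n
    have h3 : a n = b n := by
      have hp : 0 < str d n := by omega
      have := congrArg (· / str d n) h
      simpa [Nat.add_mul_div_left _ _ hp, Nat.div_eq_of_lt h1, Nat.div_eq_of_lt h2] using this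
    rw [h3] at h
    intro i hi
    rcases Nat.lt_succ_iff_lt_or_eq.mp hi with hi | rfl
    · exact ih (by omega) i hi
    · exact h3

/-- Kronecker substitution detects nonnegative coefficients. -/
theorem coeff_nonneg_of_kron (P : MvPolynomial ℕ ℤ) (ds : List ℕ)
    (hd : ∀ i, degreeOf i P ≤ ds.getD i 0) (n K : ℕ) (hn : Bd P n) (hK : n < 2 ^ K) (N : ℕ)
    (hN : (N : ℤ) = eval (fun i => 2 ^ (strides ds (K + 1)).getD i 0) P)
    (hb : ∀ j, N.testBit ((K + 1) * j + K) = false) : ∀ α, 0 ≤ coeff α P := by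
  set d : ℕ → ℕ := fun j => ds.getD j 0 with hdd
  have hle : ∀ α ∈ P.support, ∀ i, α i ≤ d i := fun α hα i =>
    (monomial_le_degreeOf i hα).trans (hd i)
  have hz : ∀ α ∈ P.support, ∀ i, ds.length ≤ i → α i = 0 := fun α hα i hi => by
    have := hle α hα i
    simp only [hdd, List.getD_eq_default _ _ hi] at this
    omega
  have := digits_nonneg P.support (fun α => coeff α P)
    (fun α => ∑ i ∈ Finset.range ds.length, str d i * α i) ?_ K ?_ N ?_ hb
  · intro α
    by_cases hα : α ∈ P.support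
    · exact this α hα
    · exact (notMem_support_iff.mp hα).ge
  · intro α hα β hβ h
    ext i
    by_cases hi : i < ds.length
    · exact radix_inj d α β (hle α hα) (hle β hβ) _ h i hi
    · rw [hz α hα i (by omega), hz β hβ i (by omega)]
  · exact hn.sum_le.trans_lt (by exact_mod_cast hK)
  · rw [hN, eval_eq]
    refine Finset.sum_congr rfl fun α hα => ?_
    congr 1
    rw [Finset.mul_sum, ← Finset.prod_pow_eq_pow_sum]
    rw [Finset.prod_subset (s₂ := Finset.range ds.length)]
    · refine Finset.prod_congr rfl fun i hi => ?_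
      rw [getD_strides _ _ _ (Finset.mem_range.mp hi), ← pow_mul, mul_assoc]
    · intro i hi
      by_contra h
      exact Finsupp.mem_support_iff.mp hi (hz α hα i (by simpa using h))
    · intro i _ hi
      rw [Finsupp.notMem_support_iff.mp hi, pow_zero]

end Crest.Agent.Lib.PolyBB
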