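import Mathlib
import Crest.Agent.Lib.PolyBB.Core

/-!
# Verified polynomial branch and bound: specifications of the raw functions
-/

set_option autoImplicit false

namespace Crest.Agent.Lib.PolyBB

theorem band_eq_true {a b : Bool} : band a b = true ↔ a = true ∧ b = true := by
  cases a <;> simp [band]

theorem nth_eq {α : Type} (d : α) (l : List α) (i : ℕ) : nth d l i = l.getD i d := by
  induction l generalizing i with
  | nil => rfl
  | cons a l ih =>
    cases i with
    | zero => rfl
    | succ i => exact ih i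

theorem app_eq {α : Type} (a b : List α) : app a b = a ++ b := by
  induction a with
  | nil => rfl
  | cons x a ih => exact congrArg (x :: ·) ih

theorem iabs_eq (z : ℤ) : iabs z = z.natAbs := by cases z <;> rfl

namespace Z

theorem val_dif (m n : ℕ) : (dif m n).val = (m : ℤ) - n := by
  unfold dif
  cases h : Nat.ble n m
  · have : ¬ n ≤ m := by rw [← Nat.ble_eq, h]; simp
    change -((n - m : ℕ) : ℤ) = _
    omega
  · have : n ≤ m := Nat.le_of_ble_eq_true h
    change ((m - n : ℕ) : ℤ) = _
    omega

theorem val_add (a b : Z) : (add a b).val = a.val + b.val := by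
  cases a <;> cases b
  · exact Nat.cast_add _ _
  · exact (val_dif _ _).trans (by simp [val, sub_eq_add_neg])
  · exact (val_dif _ _).trans (by simp [val]; ring)
  · rename_i m n
    change -((m + n : ℕ) : ℤ) = -(m : ℤ) + -(n : ℤ)
    push_cast; ring

theorem val_sub (a b : Z) : (sub a b).val = a.val - b.val := by
  cases a <;> cases b
  · exact val_dif _ _
  · rename_i m n
    change ((m + n : ℕ) : ℤ) = (m : ℤ) - -(n : ℤ)
    push_cast; ring
  · rename_i m n
    change -((m + n : ℕ) : ℤ) = -(m : ℤ) - (n : ℤ)
    push_cast; ring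
  · exact (val_dif _ _).trans (by simp [val]; ring)

theorem val_mul (a b : Z) : (mul a b).val = a.val * b.val := by
  cases a <;> cases b <;> rename_i m n
  · exact Nat.cast_mul _ _
  · change -((m * n : ℕ) : ℤ) = (m : ℤ) * -(n : ℤ)
    push_cast; ring
  · change -((m * n : ℕ) : ℤ) = -(m : ℤ) * (n : ℤ)
    push_cast; ring
  · change ((m * n : ℕ) : ℤ) = -(m : ℤ) * -(n : ℤ)
    push_cast; ring

theorem val_pow (a : Z) (k : ℕ) : (pow a k).val = a.val ^ k := by
  cases a <;> rename_i m
  · exact Nat.cast_pow _ _
  · unfold pow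
    cases h : Nat.beq (Nat.mod k 2) 0
    · have h1 : k % 2 ≠ 0 := Nat.ne_of_beq_eq_false h
      change -((m ^ k : ℕ) : ℤ) = (-(m : ℤ)) ^ k
      rw [Odd.neg_pow (Nat.odd_iff.mpr (by omega))]
      push_cast; rfl
    · have h1 : k % 2 = 0 := Nat.eq_of_beq_eq_true h
      change ((m ^ k : ℕ) : ℤ) = (-(m : ℤ)) ^ k
      rw [Even.neg_pow (Nat.even_iff.mpr h1)]
      push_cast; rfl

theorem val_shl (a : Z) (s : ℕ) : (shl a s).val = a.val * 2 ^ s := by
  cases a <;> rename_i m
  · change ((m <<< s : ℕ) : ℤ) = (m : ℤ) * 2 ^ s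
    rw [Nat.shiftLeft_eq]; push_cast; rfl
  · change -((m <<< s : ℕ) : ℤ) = -(m : ℤ) * 2 ^ s
    rw [Nat.shiftLeft_eq]; push_cast; ring

theorem val_ofInt (z : ℤ) : (ofInt z).val = z := by
  cases z <;> rfl

end Z

/-! ## Degree lists -/

theorem getD_lzip (f : ℕ → ℕ → ℕ) (h1 : ∀ a, f a 0 = a) (h2 : ∀ b, f 0 b = b) (a b : List ℕ)
    (i : ℕ) : (lzip f a b).getD i 0 = f (a.getD i 0) (b.getD i 0) := by
  induction a generalizing b i with
  | nil => exact (h2 _).symm
  | cons x a ih =>
    cases b with
    | nil => exact (h1 _).symm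
    | cons y b =>
      cases i with
      | zero => rfl
      | succ i => exact ih b i

theorem nmax_eq (a b : ℕ) : nmax a b = max a b := by
  unfold nmax
  cases h : Nat.ble a b
  · have : ¬ a ≤ b := by rw [← Nat.ble_eq, h]; simp
    change a = _
    omega
  · have : a ≤ b := Nat.le_of_ble_eq_true h
    change b = _
    omega

theorem getD_lsm (k : ℕ) (a : List ℕ) (i : ℕ) : (lsm k a).getD i 0 = a.getD i 0 * k := by
  induction a generalizing i with
  | nil => exact (Nat.zero_mul k).symm
  | cons x a ih =>
    cases i with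
    | zero => rfl
    | succ i => exact ih i

theorem getD_lone (j i : ℕ) : (lone j).getD i 0 = if i = j then 1 else 0 := by
  induction j generalizing i with
  | zero => cases i <;> rfl
  | succ j ih =>
    cases i with
    | zero => rfl
    | succ i => exact (ih i).trans (by simp)

/-- The degree of `e` in variable `i`. -/
noncomputable def deg (e : E) (i : ℕ) : ℕ := (degs e).getD i 0

theorem deg_var (j i : ℕ) : deg (.var j) i = if i = j then 1 else 0 := getD_lone j i
theorem deg_par (j i : ℕ) : deg (.par j) i = 0 := rfl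
theorem deg_cst (z : ℤ) (i : ℕ) : deg (.cst z) i = 0 := rfl
theorem deg_add (a b : E) (i : ℕ) : deg (.add a b) i = max (deg a i) (deg b i) :=
  (getD_lzip nmax (fun a => by simp [nmax_eq]) (fun a => by simp [nmax_eq]) _ _ i).trans
    (nmax_eq _ _)
theorem deg_sub (a b : E) (i : ℕ) : deg (.sub a b) i = max (deg a i) (deg b i) :=
  deg_add a b i
theorem deg_mul (a b : E) (i : ℕ) : deg (.mul a b) i = deg a i + deg b i :=
  getD_lzip Nat.add (fun _ => rfl) (fun a => Nat.zero_add a) _ _ i
theorem deg_pow (a : E) (k i : ℕ) : deg (.pow a k) i = deg a i * k := getD_lsm k _ i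

/-! ## Generic evaluation -/

section ev

variable {R : Type} [CommRing R]

/-- Evaluation in a commutative ring. -/
def E.ev (x : ℕ → R) (p : ℕ → ℤ) : E → R
  | .var i => x i
  | .par j => (p j : R)
  | .cst z => (z : R)
  | .add a b => a.ev x p + b.ev x p
  | .sub a b => a.ev x p - b.ev x p
  | .mul a b => a.ev x p * b.ev x p
  | .pow a k => a.ev x p ^ k

/-- Evaluation of homogenised expressions. -/
def H.ev (V U : ℕ → R) (p : ℕ → ℤ) : H → R
  | .v i => V i
  | .u i => U i
  | .par j => (p j : R)
  | .cst z => (z : R)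
  | .add a b => a.ev V U p + b.ev V U p
  | .sub a b => a.ev V U p - b.ev V U p
  | .mul a b => a.ev V U p * b.ev V U p
  | .pow a k => a.ev V U p ^ k

theorem H.map_ev {S : Type} [CommRing S] (φ : R →+* S) (V U : ℕ → R) (p : ℕ → ℤ) (h : H) :
    φ (h.ev V U p) = h.ev (fun i => φ (V i)) (fun i => φ (U i)) p := by
  induction h <;> simp [H.ev, *]

theorem ev_upw (V U : ℕ → R) (p : ℕ → ℤ) (i k : ℕ) : (upw i k).ev V U p = U i ^ k := by
  unfold upw
  cases h : Nat.beq k 1
  · rfl
  · rw [Nat.eq_of_beq_eq_true h, pow_one]; rfl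

theorem ups_cons (y : ℕ) (b a : List ℕ) (i : ℕ) : ups (y :: b) a i =
    if y ≤ a.getD 0 0 then ups b a.tail (i + 1) else
      some (match ups b a.tail (i + 1) with
        | none => upw i (y - a.getD 0 0)
        | some h => H.mul (upw i (y - a.getD 0 0)) h) := by
  have e : ups (y :: b) a i = Bool.rec (motive := fun _ => Option H)
      (some (Option.rec (motive := fun _ => H) (upw i (y - a.getD 0 0))
        (fun h => H.mul (upw i (y - a.getD 0 0)) h) (ups b a.tail (i + 1))))
      (ups b a.tail (i + 1)) (Nat.ble y (a.getD 0 0)) := by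
    cases a <;> rfl
  rw [e]
  split_ifs with h
  · rw [Nat.ble_eq_true_of_le h]
  · have : Nat.ble y (a.getD 0 0) = false := by
      rw [← Bool.not_eq_true, Nat.ble_eq]; exact h
    rw [this]
    cases ups b a.tail (i + 1) <;> rfl

theorem ev_ups (V U : ℕ → R) (p : ℕ → ℤ) (b a : List ℕ) (i n : ℕ) (hn : b.length ≤ n) :
    (match ups b a i with | none => 1 | some w => w.ev V U p) =
      ∏ j ∈ Finset.range n, U (i + j) ^ (b.getD j 0 - a.getD j 0) := by
  induction b generalizing a i n with
  | nil => simp [ups]
  | cons y b ih =>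
    obtain ⟨n, rfl⟩ : ∃ m, n = m + 1 := ⟨n - 1, by simp at hn; omega⟩
    have h1 := ih a.tail (i + 1) n (by simpa using hn)
    have h2 : ∏ j ∈ Finset.range n, U (i + (j + 1)) ^ ((y :: b).getD (j + 1) 0 - a.getD (j + 1) 0) =
        ∏ j ∈ Finset.range n, U (i + 1 + j) ^ (b.getD j 0 - a.tail.getD j 0) := by
      refine Finset.prod_congr rfl fun j _ => ?_
      rw [show i + (j + 1) = i + 1 + j by ring]
      cases a <;> simp
    rw [Finset.prod_range_succ', h2, ← h1, ups_cons]
    split_ifs with h
    · rw [List.getD_cons_zero, Nat.sub_eq_zero_of_le h, pow_zero, mul_one]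
    · cases ups b a.tail (i + 1) with
      | none => simp [ev_upw]
      | some w => simp [H.ev, ev_upw, mul_comm]

theorem ev_lift (V U : ℕ → R) (p : ℕ → ℤ) (h : H) (a b : List ℕ) (n : ℕ) (hn : b.length ≤ n) :
    (lift h a b).ev V U p =
      h.ev V U p * ∏ j ∈ Finset.range n, U j ^ (b.getD j 0 - a.getD j 0) := by
  have := ev_ups V U p b a 0 n hn
  simp only [zero_add] at this
  rw [← this]
  unfold lift
  cases ups b a 0 with
  | none => simp
  | some w => rfl

theorem ev_lift' (V U : ℕ → R) (p : ℕ → ℤ) (h : H) (a b : E) (n : ℕ)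
    (hn : ∀ i, n ≤ i → deg b i = 0) :
    (lift h (degs a) (degs b)).ev V U p =
      h.ev V U p * ∏ j ∈ Finset.range n, U j ^ (deg b j - deg a j) := by
  rw [ev_lift V U p h _ _ (max n (degs b).length) (le_max_right _ _)]
  congr 1
  symm
  refine Finset.prod_subset (Finset.range_subset_range.mpr (le_max_left _ _)) fun j _ hj => ?_
  rw [hn j (by simpa using hj), Nat.zero_sub, pow_zero]

theorem hom_add (a b : E) : hom (.add a b) =
    H.add (lift (hom a) (degs a) (degs b)) (lift (hom b) (degs b) (degs a)) := rfl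
theorem hom_sub (a b : E) : hom (.sub a b) =
    H.sub (lift (hom a) (degs a) (degs b)) (lift (hom b) (degs b) (degs a)) := rfl
theorem hom_mul (a b : E) : hom (.mul a b) = H.mul (hom a) (hom b) := rfl
theorem hom_pow (a : E) (k : ℕ) : hom (.pow a k) = H.pow (hom a) k := rfl

/-- The homogenised expression is `∏ U i ^ deg i * e (V / U)`. -/
theorem ev_hom (x V U : ℕ → R) (p : ℕ → ℤ) (n : ℕ) (e : E) (hn : ∀ i, n ≤ i → deg e i = 0)
    (hV : ∀ i, deg e i ≠ 0 → V i = x i * U i) :
    (hom e).ev V U p = e.ev x p * ∏ j ∈ Finset.range n, U j ^ deg e j := by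
  have key : ∀ a b : E, (∀ i, n ≤ i → deg b i = 0) →
      (hom a).ev V U p = a.ev x p * ∏ j ∈ Finset.range n, U j ^ deg a j →
      (lift (hom a) (degs a) (degs b)).ev V U p =
        a.ev x p * ∏ j ∈ Finset.range n, U j ^ max (deg a j) (deg b j) := by
    intro a b hb ha
    rw [ev_lift' V U p _ a b n hb, ha, mul_assoc, ← Finset.prod_mul_distrib]
    congr 1
    refine Finset.prod_congr rfl fun j _ => ?_
    rw [← pow_add]; congr 1; omega
  induction e with
  | var i =>
    have hi : i < n := by
      by_contra h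
      have := hn i (by omega)
      simp [deg_var] at this
    change V i = x i * _
    rw [hV i (by simp [deg_var]), Finset.prod_eq_single i]
    · simp [deg_var]
    · intro j _ hj; simp [deg_var, hj]
    · intro h; exact absurd (Finset.mem_range.mpr hi) h
  | par j => simp [deg_par, E.ev]; rfl
  | cst z => simp [deg_cst, E.ev]; rfl
  | add a b iha ihb =>
    simp only [deg_add] at hn hV ⊢
    have ha := iha (fun i hi => by have := hn i hi; omega) (fun i hi => hV i (by omega))
    have hb := ihb (fun i hi => by have := hn i hi; omega) (fun i hi => hV i (by omega))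
    rw [hom_add, H.ev, key a b (fun i hi => by have := hn i hi; omega) ha,
      key b a (fun i hi => by have := hn i hi; omega) hb, E.ev, add_mul]
    simp only [max_comm]
  | sub a b iha ihb =>
    simp only [deg_sub] at hn hV ⊢
    have ha := iha (fun i hi => by have := hn i hi; omega) (fun i hi => hV i (by omega))
    have hb := ihb (fun i hi => by have := hn i hi; omega) (fun i hi => hV i (by omega))
    rw [hom_sub, H.ev, key a b (fun i hi => by have := hn i hi; omega) ha,
      key b a (fun i hi => by have := hn i hi; omega) hb, E.ev, sub_mul]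
    simp only [max_comm]
  | mul a b iha ihb =>
    simp only [deg_mul] at hn hV ⊢
    have ha := iha (fun i hi => by have := hn i hi; omega) (fun i hi => hV i (by omega))
    have hb := ihb (fun i hi => by have := hn i hi; omega) (fun i hi => hV i (by omega))
    rw [hom_mul, H.ev, ha, hb, E.ev]
    simp only [pow_add, Finset.prod_mul_distrib]
    ring
  | pow a k iha =>
    simp only [deg_pow] at hn hV ⊢
    rcases Nat.eq_zero_or_pos k with rfl | hk
    · simp [hom_pow, H.ev, E.ev]
    have ha := iha (fun i hi => by have := hn i hi; simpa [hk.ne'] using this)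
      (fun i hi => hV i (by positivity))
    rw [hom_pow, H.ev, ha, E.ev, mul_pow, ← Finset.prod_pow]
    simp only [pow_mul]

end ev

/-! ## Degrees of the homogenised polynomial -/

open MvPolynomial in
theorem degreeOf_hom (V U : ℕ → MvPolynomial ℕ ℤ) (p : ℕ → ℤ)
    (hV : ∀ i j, degreeOf i (V j) ≤ if i = j then 1 else 0)
    (hU : ∀ i j, degreeOf i (U j) ≤ if i = j then 1 else 0) (e : E) (i : ℕ) :
    degreeOf i ((hom e).ev V U p) ≤ deg e i := by
  have key : ∀ a b : E, degreeOf i ((hom a).ev V U p) ≤ deg a i →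
      degreeOf i ((lift (hom a) (degs a) (degs b)).ev V U p) ≤ max (deg a i) (deg b i) := by
    intro a b ha
    rw [ev_lift V U p _ _ _ _ le_rfl]
    refine (degreeOf_mul_le _ _ _).trans ?_
    have : degreeOf i (∏ j ∈ Finset.range (degs b).length,
        U j ^ ((degs b).getD j 0 - (degs a).getD j 0)) ≤ deg b i - deg a i := by
      refine (degreeOf_prod_le _ _ _).trans ?_
      refine (Finset.sum_le_sum (g := fun j => if i = j then deg b i - deg a i else 0)
        fun j _ => (degreeOf_pow_le _ _ _).trans ?_).trans ?_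
      · have := hU i j
        split_ifs at this ⊢ with h
        · subst h
          exact (Nat.mul_le_mul_left _ this).trans (by simp [deg])
        · simp [Nat.le_zero.mp this]
      · rw [Finset.sum_ite_eq]; split_ifs <;> simp
    omega
  induction e with
  | var j => rw [deg_var]; exact hV i j
  | par j => exact (degreeOf_C (p j) i).le
  | cst z => exact (degreeOf_C z i).le
  | add a b iha ihb =>
    rw [hom_add, H.ev, deg_add]
    exact (degreeOf_add_le _ _ _).trans
      (max_le (key a b iha) ((key b a ihb).trans_eq (max_comm _ _)))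
  | sub a b iha ihb =>
    rw [hom_sub, H.ev, deg_sub]
    exact (degreeOf_sub_le _ _ _).trans
      (max_le (key a b iha) ((key b a ihb).trans_eq (max_comm _ _)))
  | mul a b iha ihb =>
    rw [hom_mul, H.ev, deg_mul]
    exact (degreeOf_mul_le _ _ _).trans (Nat.add_le_add iha ihb)
  | pow a k iha =>
    rw [hom_pow, H.ev, deg_pow, mul_comm]
    exact (degreeOf_pow_le _ _ _).trans (Nat.mul_le_mul_left _ iha)

end Crest.Agent.Lib.PolyBB
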